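import Crest.Agent.X212.Rf65.Pt
import Crest.Agent.X212.Sym93.Trp
import Crest.Agent.X212.Nck90.Xs
import Crest.Agent.X212.Dgr80.PosC
import Crest.Agent.X212.Spn45.Eqs

/-! Row 212, **RF-WL**: critical points and chains on a wall of positive scalar curvature. -/

set_option autoImplicit false
set_option linter.unusedSectionVars false
noncomputable section
open Set Function Filter Topology MeasureTheory Quaternion
open scoped ContDiff Manifold InnerProductSpace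

namespace Crest.Agent.X212.Wl34
open An An.Pre Sob92 Wz78 Nd18 Cyf70 Clr59
open Rdc90 (Bs Har HC Eqs GP NP)
open Rf65 (ParY dz dh PY WlStmt)
open Ink3 (Nil nd0 nd0_nil nd0_ok)

theorem q2 {n m : ℍ} (h : n.re = 0) (h' : m.re = 0) {s t : ℝ}
    (e : n * m + (-1 : ℝ) • (m * n) = s • n + t • m) :
    ∃ a b : ℝ, a • n + b • m = 0 ∧ ¬(a = 0 ∧ b = 0) := by
  by_cases z : n = 0
  · exact ⟨1, 0, by simp [z], by simp⟩
  simp only [Quaternion.ext_iff] at e
  simp [h, h'] at e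
  obtain ⟨-, e1, e2, e3⟩ := e
  have k : (n.imJ * m.imK - n.imK * m.imJ) ^ 2 + (n.imK * m.imI - n.imI * m.imK) ^ 2 +
      (n.imI * m.imJ - n.imJ * m.imI) ^ 2 = 0 := by
    linear_combination (n.imJ * m.imK - n.imK * m.imJ) / 2 * e1 +
      (n.imK * m.imI - n.imI * m.imK) / 2 * e2 + (n.imI * m.imJ - n.imJ * m.imI) / 2 * e3
  have k1 : n.imJ * m.imK - n.imK * m.imJ = 0 := by nlinarith
  have k2 : n.imK * m.imI - n.imI * m.imK = 0 := by nlinarith
  have k3 : n.imI * m.imJ - n.imJ * m.imI = 0 := by nlinarith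
  refine ⟨-⟪n, m⟫_ℝ, normSq n, ?_, fun k => z (normSq_eq_zero.1 k.2)⟩
  rw [Std94.inner_q, normSq_def']
  ext <;> simp [h, h'] <;> grind

variable {E3 : Type} [NormedAddCommGroup E3] [NormedSpace ℝ E3] [FiniteDimensional ℝ E3]
  [MeasurableSpace E3] [BorelSpace E3]
  {H3 : Type} [TopologicalSpace H3] {I3 : ModelWithCorners ℝ E3 H3} [I3.Boundaryless]
  {Y : Type} [TopologicalSpace Y] [ChartedSpace H3 Y] [IsManifold I3 ∞ Y] [T2Space Y]
  [MeasurableSpace Y] [BorelSpace Y] [SecondCountableTopology Y] [CompactSpace Y]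
  {κ : Type} [Fintype κ] {lam : Type} [Fintype lam] {D : YD I3 Y κ lam} {β β' : YC Y κ lam}
  {N : ND Y lam} {b : ℕ} {ζ ζ' : Circle}

theorem zero_of_int {V : Type} [NormedAddCommGroup V] {f : Y → V} (hf : Continuous f)
    (h : ∫ y, ‖f y‖ ^ 2 ∂D.F.μ ≤ 0) (y : Y) : f y = 0 := by
  have := openPos D.F.toPre
  have c := hf.norm.pow 2
  simpa using congrFun ((c.ae_eq_iff_eq D.F.μ continuous_zero).1 ((integral_eq_zero_iff_of_nonneg
    (fun _ => sq_nonneg _) (c.integrable_of_hasCompactSupport (.of_compactSpace _))).1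
      (h.antisymm (integral_nonneg fun _ => sq_nonneg _)))) y

theorem eqs (hN : Nil N) (h : N.Crit D β) (O : Set (Y × ℝ)) : Eqs D (cy β) O := fun x _ =>
  let s := (hN.crit.1 h).1
  ⟨(sub_zero _).symm.trans (s.D x), sub_eq_zero.1 ((sub_zero _).symm.trans (s.C x))⟩

/-- critical points are flat and reducible -/
theorem bs (hD : D.OK) (h3 : Module.finrank ℝ E3 = 3) (hN : Nil N) (py : PY D b)
    (h : N.Crit D β) : Bs D β := by
  obtain ⟨c, c0, hc⟩ := py.ps
  have A := Bki64.crit_adm h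
  have e := (Rd78.cvp _ _ _ _ D c hD hc _ A.adm).2.2 univ isOpen_univ (eqs hN h _) 0 trivial
  rw [show GP D (cy β) = fun _ => ∫ y, ‖β.Φ y‖ ^ 2 ∂D.F.μ from rfl] at e
  simp only [deriv_const'] at e
  have n : 0 ≤ NP D (cy β) 0 := integral_nonneg fun _ => by positivity
  have z := zero_of_int (D := D) (f := β.Φ) (sm_slice_fst A.adm.sm 0).continuous (by nlinarith)
  refine ⟨hD, h3, A, z, fun x => ?_⟩
  have := Spn45.norm_Fg hD A x
  rw [(eqs hN h univ x trivial).2, show (cy β).Φ x = 0 from z _] at this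
  simpa [Md.mu, Md.q, rk1, ← Pi.zero_def] using this

theorem hc (py : PY D b) (h : Bs D β) : HC D β :=
  let ⟨ν, r, S⟩ := py.psc
  have := Fin.subsingleton_iff_le_one.2 py.b1
  Rd78.hc _ _ _ _ D β h _ ν r S

theorem dh_mul (py : PY D b) (h : Bs D β) : dh D β = b * dz D β := by
  obtain ⟨ν, r, S⟩ := py.psc
  obtain rfl | rfl := Nat.le_one_iff_eq_zero_or_eq_one.1 py.b1
  · rw [zero_mul, dh, (Submodule.span_eq_bot (s := {η | Har D β η})).2 fun η k => funext₂ fun k' y =>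
      ((Sym93.har_dec S h k).2 k' y).trans (Fin.sum_univ_zero _), finrank_bot]
  · obtain ⟨ν, rfl⟩ : ∃ ν', ν = fun _ => ν' := ⟨ν 0, funext fun i => congrArg ν (i.eq_zero)⟩
    rw [one_mul, dh_eq S h]

/-- chains have positive level -/
theorem brk (hD : D.OK) (h3 : Module.finrank ℝ E3 = 3) (hN : Nil N) (py : PY D b) {k j}
    (h : N.Brk D 0 β ζ β' ζ' k j) (a : N.Crit D β) : 0 ≤ k ∧ (j ≠ 0 → 0 < k) := by
  induction h with
  | nil => simp
  | bub _ ih => exact ⟨by linarith [(ih a).1], fun _ => by linarith [(ih a).1]⟩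
  | mov c t m a' _ ih =>
    have n : Nil (nd0 I3 Y lam) := nd0_nil
    have k := fun β a => bs hD h3 n py (β := β) a
    have e : ∀ {β}, N.Crit D β → (nd0 I3 Y lam).Crit D β := fun a => n.crit.2 (hN.crit.1 a)
    have := (Nck90.pos_psc n (fun β a => ⟨k β a, hc py (k β a)⟩) py.ps Dgr80.posStmt hD (nd0_ok D)
      h3.le c _ _ _ _ (e a) (e a') (n.traj.2 (hN.traj.1 t))).2.2 m
    simp [ND.tE, n.lv, (k _ (e a)).zr, (k _ (e a')).zr] at this
    exact ⟨by linarith [(ih a').1], fun _ => by linarith [(ih a').1]⟩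

variable [ConnectedSpace Y]

theorem par_zero (hD : D.OK) (A : D.Adm β) {ξ : Y → β.m.A} (p : ParY D β ξ) {y : Y} (e : ξ y = 0) :
    ξ = 0 := funext fun y' => norm_eq_zero.1 ((norm_par hD A p y' y).trans (norm_eq_zero.2 e))

theorem dz_le3 (hD : D.OK) (A : D.Adm β) : dz D β ≤ 3 := by
  have y := Classical.arbitrary Y
  let ev : parS D β →ₗ[ℝ] β.m.A := ⟨⟨fun ξ => ξ.1 y, fun _ _ => rfl⟩, fun _ _ => rfl⟩
  have i : Injective ev := (injective_iff_map_eq_zero _).2 fun ξ e =>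
    Subtype.ext (par_zero hD A ξ.2 e)
  have e : ev.range ≤ β.m.gS y := by rintro _ ⟨ξ, rfl⟩; exact ξ.2.mem y
  have := Std94.finrank_g hD.B (Std94.pmx A.adm.ok (y, 0))
  rw [dz_def, ← LinearMap.finrank_range_of_inj i]
  exact (Submodule.finrank_mono e).trans_eq this

theorem par_dep (hD : D.OK) (A : D.Adm β) {ξ ξ' : Y → β.m.A} (p : ParY D β ξ) (p' : ParY D β ξ')
    (h : ∀ χ, ParY D β χ → ∃ s t : ℝ, s • ξ + t • ξ' = χ) :
    ∃ a b : ℝ, a • ξ + b • ξ' = 0 ∧ ¬(a = 0 ∧ b = 0) := by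
  have y := Classical.arbitrary Y
  obtain ⟨_, _, f, F⟩ := Std94.exists_fx hD.B (Std94.pmx A.adm.ok (y, 0))
  obtain ⟨n, n0, n1⟩ := (F.mem_g_iff _).1 (p.mem y)
  obtain ⟨m, m0, m1⟩ := (F.mem_g_iff _).1 (p'.mem y)
  replace n1 : opL (ξ y) = Std94.Xi f f n := (congrArg _ n1).trans (opL_hsL _)
  replace m1 : opL (ξ' y) = Std94.Xi f f m := (congrArg _ m1).trans (opL_hsL _)
  have e1 : opL (ξ y) ∘L opL (ξ' y) + (-1 : ℝ) • opL (ξ' y) ∘L opL (ξ y) =
      Std94.Xi f f (n * m + (-1 : ℝ) • (m * n)) := by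
    rw [n1, m1, map_add, map_smul, ← Std94.Xi_comp f f, ← Std94.Xi_comp f f]; rfl
  have s := (Std94.skew_Xi_iff f (n * m + (-1 : ℝ) • (m * n))).2 (by simp [n0, m0]; ring)
  rw [← e1] at s
  have k := ps_par hD A p
  have k' := ps_par hD A p'
  obtain ⟨χ, q, e2⟩ := par_of_ps hD A ((k'.comp k).lin (k.comp k') (-1)) (x := (y, 0)) s
  have e3 : ∀ s t : ℝ, opL ((s • ξ + t • ξ') y) = Std94.Xi f f (s • n + t • m) := fun s t => by
    simp only [Pi.add_apply, Pi.smul_apply, map_add, map_smul, n1, m1]; rfl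
  obtain ⟨s, t, rfl⟩ := h χ q
  obtain ⟨s, t, k1, k2⟩ := q2 n0 m0 (Std94.Xi_inj f f ((e1.symm.trans (e2 (y, 0))).trans (e3 _ _)))
  refine ⟨s, t, par_zero hD A (y := y) ((parS D β).add_mem ((parS D β).smul_mem s p)
    ((parS D β).smul_mem t p')) (opL_inj ?_), k2⟩
  exact (e3 s t).trans ((congrArg _ k1).trans ((map_zero _).trans (map_zero _).symm))

theorem dz_mem (hD : D.OK) (A : D.Adm β) : dz D β = 0 ∨ dz D β = 1 ∨ dz D β = 3 := by
  have := Sym93.fin_par hD A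
  have l := dz_le3 hD A
  have : dz D β ≠ 2 := fun e => by
    let B := Module.finBasisOfFinrankEq ℝ _ (dz_def.symm.trans e)
    obtain ⟨s, t, k1, k2⟩ := par_dep hD A (B 0).2 (B 1).2 fun χ q =>
      ⟨_, _, congrArg Subtype.val ((Fin.sum_univ_two _).symm.trans (B.sum_repr ⟨χ, q⟩))⟩
    refine k2 (LinearIndependent.pair_iff.1 (show LinearIndependent ℝ ![B 0, B 1] from ?_) s t
      (Subtype.ext k1))
    convert B.linearIndependent using 1
    exact funext (Fin.forall_fin_two.2 ⟨rfl, rfl⟩)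
  omega

/-- **RF-WL** -/
theorem wl {Y : M.Mf 3} [CompactSpace Y.M] [ConnectedSpace Y.M] (D : YD Y.I Y.M κ lam) :
    WlStmt D := fun _ _ hD hN py =>
  ⟨fun _ => bs hD Y.dim hN py, fun _ h => ⟨dh_mul py h, dz_mem hD h.adm⟩,
    fun _ _ h h' => Sym93.dz_eqv hD h.adm h'.adm, fun _ _ _ _ _ _ a h => brk hD Y.dim hN py h a⟩

end Crest.Agent.X212.Wl34
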