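import Crest.Agent.X212.Wl34.Wl

/-! Row 212, **RF-CCL**: fixed limits stay fixed. -/

set_option autoImplicit false
set_option linter.unusedSectionVars false
noncomputable section
open Set Function Filter Topology MeasureTheory
open scoped ContDiff Manifold InnerProductSpace

namespace Crest.Agent.X212.Wl34
open An An.Pre Sob92 Wz78 Nd18 Cyf70 Clr59 Pj41 Tmp64
open Rdc90 (Bs A0 Nw bh)
open Rf65 (ParY dz dh PY Pq)
open Eqv71 (cj trnL opL_cj sa_trn sa_comp dv_ccomp dv_trn trn_of_skw trn_trn)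
open Bki64 (Cl Cn win win_op)
open Std94 (Itx pmx)

theorem alg {a b : Type} [Fintype a] [Fintype b] {g d : CL (Eu a) (Eu b)} {W' x e : En a} {W : En b}
    (s : Skw W) (s' : Skw W') (h : e + (W' * x - x * W') = 0) :
    d ∘L x ∘L trn g + g ∘L (e ∘L trn g + x ∘L trn d) +
      (W * (g ∘L x ∘L trn g) - (g ∘L x ∘L trn g) * W) = (d + W ∘L g - g ∘L W') ∘L x ∘L trn g +
        g ∘L x ∘L trn (d + W ∘L g - g ∘L W') := by
  have : trn (d + W ∘L g - g ∘L W') = trn d + trn (W ∘L g) - trn (g ∘L W') :=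
    (map_sub trnL _ _).trans (congrArg (· - _) (map_add trnL _ _))
  rw [this, Eqv71.trn_comp, Eqv71.trn_comp, trn_of_skw s, trn_of_skw s', eq_neg_of_add_eq_zero_left h]
  ext1 v
  simp only [ContinuousLinearMap.comp_apply, add_apply, sub_apply, neg_apply, mul_apply_eq_comp,
    map_add, map_sub, map_neg]
  abel

theorem norm_trn {a b : Type} [Fintype a] [Fintype b] (g : CL (Eu a) (Eu b)) : ‖trn g‖ = ‖g‖ :=
  LinearIsometryEquiv.norm_map _ _

theorem norm3 {a b c d : Type} [Fintype a] [Fintype b] [Fintype c] [Fintype d] {f : CL (Eu c) (Eu d)}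
    {g : CL (Eu b) (Eu c)} {k : CL (Eu a) (Eu b)} {x y z : ℝ} (h1 : ‖f‖ ≤ x) (h2 : ‖g‖ ≤ y)
    (h3 : ‖k‖ ≤ z) : ‖f ∘L g ∘L k‖ ≤ x * (y * z) :=
  (f.opNorm_comp_le _).trans (mul_le_mul h1 ((g.opNorm_comp_le _).trans (mul_le_mul h2 h3
    (norm_nonneg _) ((norm_nonneg _).trans h2))) (norm_nonneg _) ((norm_nonneg _).trans h1))

section Y
variable {E3 : Type} [NormedAddCommGroup E3] [NormedSpace ℝ E3] [FiniteDimensional ℝ E3]
  [MeasurableSpace E3] [BorelSpace E3]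
  {H3 : Type} [TopologicalSpace H3] {I3 : ModelWithCorners ℝ E3 H3} [I3.Boundaryless]
  {Y : Type} [TopologicalSpace Y] [ChartedSpace H3 Y] [IsManifold I3 ∞ Y] [T2Space Y]
  [MeasurableSpace Y] [BorelSpace Y] [SecondCountableTopology Y] [CompactSpace Y]
  {κ : Type} [Fintype κ] {lam : Type} [Fintype lam] {D : YD I3 Y κ lam} {β β' : YC Y κ lam}
  {g : Y → CL β'.m.V β.m.V} {δ : ℝ} {ξ : Y → β'.m.A}

/-- almost parallel isomorphisms -/
structure Ap (D : YD I3 Y κ lam) (β' β : YC Y κ lam) (g : Y → CL β'.m.V β.m.V) (δ : ℝ) : Prop where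
  sm : Sm I3 g
  iso : ∀ y, CIso (g y) (β'.m.p y) (β.m.p y)
  it : ∀ y, Itx (cy β').m (cy β).m (y, 0) (g y)
  cv : ∀ k y, ‖D.F.D k g y + β.W (some k) y ∘L g y - g y ∘L β'.W (some k) y‖ ≤ δ

theorem Ap.of_cl (A' : D.Adm β') {u ζ O k} (h : Cl D.Z (cy β') (cy β) u ζ O k δ) {s : ℝ}
    (m : ∀ y, (y, s) ∈ O) : Ap D β' β (fun y => u (y, s)) δ :=
  ⟨fun y => Bki64.sm_slice (h.iso.su _ (m y)), fun y => h.iso.iso _ (m y), fun y =>
    ⟨fun v => congrArg (· v) (h.iso.iso _ (m y)).left, fun v => congrArg (· v) (h.iso.iso _ (m y)).idem,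
      fun a v => (congrArg (· v) (h.iso.ρ _ (m y) a)).symm, fun v => (congrArg (· v) (h.iso.J _ (m y))).symm,
      fun s v => (congrArg (· v) (h.iso.j _ (m y) s)).symm⟩,
    fun k y => by
      have := Bki64.dA_u (G := D.G) h.iso h.op ((admOn_univ.2 A'.adm).mono (subset_univ _)) (m y)
        (some k)
      exact (congrArg norm (this.trans (congrArg (· + (cy β).W (some k) (y, s) ∘L u (y, s) -
        u (y, s) ∘L (cy β').W (some k) (y, s)) (D_some_at D.F.toPre (x := (y, s)) (h.iso.su _ (m y)).md k)))).symm.trans_le ((ContinuousLinearMap.opNorm_comp_le _ _).trans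
        ((mul_le_of_le_one_right (norm_nonneg _) (Bki64.norm_iso (h.iso.iso _ (m y)))).trans
          ((h.A _).le (m y))))⟩

theorem sk (A : D.Adm β) (k : κ) (y : Y) : Skw (β.W (some k) y) := A.adm.conn.sk _ (y, 0)

namespace Ap
variable (h : Ap D β' β g δ) (A : D.Adm β) (A' : D.Adm β')
include h A A'

theorem symm : Ap D β β' (fun y => trn (g y)) δ :=
  ⟨fun y => sa_trn (h.sm y), fun y => ad_trn (g y) ▸ (h.iso y).symm,
    fun y => Dfl49.itx_trn (pmx A'.adm.ok _) (pmx A.adm.ok _) (h.it y), fun k y => by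
      refine le_of_eq_of_le ?_ (h.cv k y)
      rw [← norm_trn, Pre.D_def, dv_trn (h.sm y)]
      refine congrArg norm ((map_sub trnL _ _).trans ((congrArg (· - _) (map_add trnL _ _)).trans ?_))
      change trn (trn _) + trn (_ ∘L trn _) - trn (trn _ ∘L _) = _
      rw [Eqv71.trn_comp, Eqv71.trn_comp, trn_trn, trn_trn, trn_of_skw (sk A k y),
        trn_of_skw (sk A' k y), Pre.D_def]
      simp only [ContinuousLinearMap.comp_neg, ContinuousLinearMap.neg_comp]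
      abel⟩

variable (hD : D.OK) (p : ParY D β' ξ)
include hD p

theorem mem (y : Y) : cj (g y) (ξ y) ∈ β.m.gS y :=
  let ⟨_, _, _, F⟩ := Std94.exists_fx hD.B (pmx A'.adm.ok (y, 0))
  Std94.Fx.mem_of_itx (m := (cy β).m) (x := (y, 0)) (Dfl49.itx_comp (Dfl49.itx_comp ((h.symm A A').it y)
    (F.itx_of_mem (p.mem y))) (h.it y)) fun v w => (Eqv71.inner_trn' (g y) _ w).symm.trans
      (((p.mem y).1 _ _).trans (congrArg Neg.neg (Eqv71.inner_trn (g y) v _)))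

omit hD A in
theorem back (y : Y) : ‖opL (ξ y)‖ ≤ ‖opL (cj (g y) (ξ y))‖ := by
  have n := Bki64.norm_iso (h.iso y)
  refine le_of_eq_of_le (congrArg norm ?_) ((norm3 (f := trn (g y)) ((norm_trn _).trans_le n) le_rfl
    n).trans_eq (by ring))
  rw [opL_cj, ← ad_trn, ContinuousLinearMap.comp_assoc, ContinuousLinearMap.comp_assoc, (h.iso y).src,
    ← ContinuousLinearMap.comp_assoc, (h.iso y).src]
  exact ((congrArg _ (g_p' (m := (cy β').m) (x := (y, 0)) A'.adm.ok (p.mem y))).trans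
    (g_p (m := β'.m) (p.mem y))).symm

omit hD in
theorem nab_le (k : κ) (y : Y) : ‖opL (nab I3 D.F.e (A0 β) k (fun y => cj (g y) (ξ y)) y)‖ ≤
    2 * δ * ‖opL (cj (g y) (ξ y))‖ := by
  have s := SA.clm opL (p.sm y)
  have n := Bki64.norm_iso (h.iso y)
  have e := (opL_nab (e := D.F.e) (m := ⟨β'.m.N, β'.m.J, β'.m.p, fun _ => 0, β'.m.j⟩)
    (W := fun k => β'.W (some k)) k (p.sm y)).trans ((congrArg _ (p.par k y)).trans (map_zero _))
  have e' := opL_nab (e := D.F.e) (m := ⟨β.m.N, β.m.J, β.m.p, fun _ => 0, β.m.j⟩)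
    (W := fun k => β.W (some k)) k ((Eqv71.sa_cj (h.sm y)).app (p.sm y))
  simp only [nabE, opL_cj] at e'
  rw [dv_ccomp (h.sm y) (sa_comp s (sa_trn (h.sm y))), dv_ccomp s (sa_trn (h.sm y)), dv_trn (h.sm y),
    alg (x := opL (ξ y)) (sk A k y) (sk A' k y) e] at e'
  exact (congrArg norm e').symm.trans_le ((norm_add_le_of_le (norm3 (h.cv k y) (h.back A' p y)
    ((norm_trn _).trans_le n)) (norm3 n (h.back A' p y) ((norm_trn _).trans_le (h.cv k y)))).trans_eq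
      (by ring))

end Ap

theorem pq (hD : D.OK) (A : D.Adm β) : Pq D.F (A0 β) β.m.pg :=
  have s := Std94.sm_pg hD.B A.adm.ok
  ⟨(Rd78.con_A0 A).sm, Rd78.skew_A0 A, sm_slice_fst s 0, pg_pg, inner_pg, fun k y =>
    (congrArg (· + (A0 β k y * β.m.pg y - β.m.pg y * A0 β k y))
      (D_some D.F.toPre s k (y, 0))).symm.trans (pg_par A.adm.ok A.adm.conn s (some k) (y, 0))⟩

variable [ConnectedSpace Y]

/-- the stabiliser is upper semicontinuous -/
theorem usc (hD : D.OK) (h3 : Module.finrank ℝ E3 = 3) (A : D.Adm β) :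
    ∃ δ > 0, ∀ β' g, D.Adm β' → Ap D β' β g δ → dz D β' ≤ dz D β := by
  obtain ⟨c, c0, hc⟩ := (pq hD A).poi (by omega)
  set K := ‖(hsL : CL (En (Fin β.m.N)) _)‖ * 2 * ‖(opL : CL β.m.A _)‖
  set C := c * (Fintype.card κ * K ^ 2)
  have C0 : 0 ≤ C := by positivity
  refine ⟨(C + 1)⁻¹, by positivity, fun β' g A' h => ?_⟩
  have := Sym93.fin_par hD A
  have s : ∀ ξ : parS D β', Sm I3 fun y => cj (g y) (ξ.1 y) := fun ξ y =>
    (Eqv71.sa_cj (h.sm y)).app (ξ.2.sm y)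
  have i : ∀ {f : Y → ℝ}, Continuous f → Integrable f D.F.μ := fun k =>
    k.integrable_of_hasCompactSupport (.of_compactSpace _)
  have i2 := fun ξ (ζ : parS D β) => i ((s ξ).continuous.inner (𝕜 := ℝ) ζ.2.sm.continuous)
  rw [dz_def, dz_def, ← Subspace.dual_finrank_eq (V := parS D β)]
  refine LinearMap.finrank_le_finrank_of_injective (f := LinearMap.mk₂ ℝ
    (fun (ξ : parS D β') (ζ : parS D β) => ∫ y, ⟪cj (g y) (ξ.1 y), ζ.1 y⟫_ℝ ∂D.F.μ)
    (fun ξ ξ' ζ => by simp [inner_add_left, integral_add (i2 _ _) (i2 _ _)])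
    (fun r ξ ζ => by simp [inner_smul_left, integral_const_mul])
    (fun ξ ζ ζ' => by simp [inner_add_right, integral_add (i2 _ _) (i2 _ _)])
    fun r ξ ζ => by simp [inner_smul_right, integral_const_mul])
    ((injective_iff_map_eq_zero _).2 fun ξ e => Subtype.ext (funext fun y => ?_))
  have n := (s ξ).continuous.norm.pow 2
  have h1 := (hc _ (s ξ) (fun y => pg_of_mem (h.mem A A' hD ξ.2 y)) fun ζ k => DFunLike.congr_fun e
    ⟨ζ, k.sm, fun y => k.mem y ▸ pg_mem y _, k.par⟩).trans (mul_le_mul_of_nonneg_left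
      (integral_mono_of_nonneg (.of_forall fun _ => by positivity)
        (g := fun y => Fintype.card κ * (K * (C + 1)⁻¹) ^ 2 * ‖cj (g y) (ξ.1 y)‖ ^ 2)
        ((i n).const_mul _) (.of_forall fun y => ?_)) c0.le)
  · rw [integral_const_mul] at h1
    have h2 : c * (Fintype.card κ * (K * (C + 1)⁻¹) ^ 2) < 1 := by
      rw [mul_pow, ← mul_assoc (_ : ℝ) (K ^ 2), ← mul_assoc, inv_pow, ← div_eq_mul_inv,
        div_lt_one (by positivity)]
      nlinarith
    have h3 := zero_of_int (D := D) (s ξ).continuous (by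
      nlinarith [integral_nonneg (μ := D.F.μ) (f := fun y => ‖cj (g y) (ξ.1 y)‖ ^ 2)
        fun _ => sq_nonneg _]) y
    have := h.back A' ξ.2 y
    rw [h3, map_zero, norm_zero, norm_le_zero_iff] at this
    exact opL_inj (this.trans (map_zero _).symm)
  · beta_reduce
    rw [mul_assoc (Fintype.card κ : ℝ), ← mul_pow, ← nsmul_eq_mul]
    refine Finset.sum_le_card_nsmul _ _ _ fun k _ => pow_le_pow_left₀ (norm_nonneg _) ?_ 2
    rw [← hsL_opL (nab _ _ _ _ _ _)]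
    refine (hsL.le_of_opNorm_le_of_le le_rfl ((h.nab_le A A' ξ.2 k y).trans
      (mul_le_mul_of_nonneg_left (opL.le_opNorm _) (by positivity)))).trans_eq (by ring)

/-- a one-dimensional stabiliser persists -/
theorem dz_near (py : PY D 1) (H : Bs D β) (h1 : dz D β = 1) :
    ∃ η > 0, ∃ η' > 0, ∀ β', D.Adm β' → (∀ s, Nw D β (cy β') s η) → Nw D β (cy β') 0 η' →
      dz D β' = 1 := by
  obtain ⟨d, d0, h2⟩ := Rdc90.dece D β H (hc py H) py.ps
  obtain ⟨η, p, h2⟩ := h2 0 1 one_pos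
  obtain ⟨η', p', h3⟩ := usc H.ok H.dim H.adm
  refine ⟨η, p, η', p', fun β' A' a ⟨a1, _, u, ζ, a2⟩ => le_antisymm (h1 ▸ h3 _ _ A'
    (.of_cl A' (Bki64.cl_of_cls H.adm a1 a2) (s := 0) fun y => ⟨trivial, by simpa, by simpa⟩)) ?_⟩
  obtain ⟨δ, δ0, h4⟩ := usc H.ok H.dim A'
  obtain ⟨T, T0, h5⟩ := ((eventually_ge_atTop 0).and ((Real.tendsto_exp_atBot.comp
    (tendsto_id.const_mul_atTop_of_neg (neg_lt_zero.2 d0))).eventually (ge_mem_nhds δ0))).exists
  obtain ⟨a, k1, -, k2, -, v, k3⟩ := h2 _ (cy β') (-T) T (by linarith) fun s _ => a s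
  have k4 := k3 0 ⟨by linarith, T0⟩
  refine le_trans ?_ (h4 _ _ k2 ((Ap.of_cl A' (k4.mono k4.op Subset.rfl le_rfl (by simpa using h5))
    (s := 0) fun y => ⟨trivial, by simp, by simp⟩).symm k2 A'))
  obtain ⟨ν, r, S⟩ := py.psc
  obtain ⟨ν, rfl⟩ : ∃ ν', ν = fun _ => ν' := ⟨ν 0, funext fun i => congrArg ν (i.eq_zero)⟩
  obtain ⟨ξ, q, rfl⟩ := (har_iff S H).1 k1
  by_cases z : ξ = 0
  · rw [z, map_zero, Rd78.bh_zero, h1]
  · have := Sym93.fin_par H.ok k2
    have q' := Sym93.par_tw (ν := ν) q 1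
    rw [one_smul] at q'
    rw [dz_def]
    exact Module.finrank_pos_iff_exists_ne_zero.2 ⟨⟨ξ, q'⟩, fun e => z (congrArg Subtype.val e)⟩

omit [ConnectedSpace Y] in
/-- the limit at an end which is close to `β` -/
theorem nw_end (A : D.Adm β) (A' : D.Adm β') (E : Rdc90.Eqs D (cy β') univ) {l : Filter ℝ} [l.NeBot]
    (hl : Bki64.IsEnd l) {r : ℕ} {c : Cfg (Y × ℝ) (Option κ) lam r} {u ζ'} {T : Set ℝ}
    (hc : AdmOn c D.B D.G (univ ×ˢ T))
    (h : ∀ k, ∀ η > 0, ∃ S ∈ l, S ⊆ T ∧ D.Cls c β' u ζ' S k η) {η : ℝ} (hη : 0 < η)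
    (h' : ∀ᶠ s in l, Ioo (s - (η / 2)⁻¹) (s + (η / 2)⁻¹) ⊆ T ∧
      ∃ u ζ, D.Cls c β u ζ (Ioo (s - (η / 2)⁻¹) (s + (η / 2)⁻¹)) ⌈(η / 2)⁻¹⌉₊ (η / 2)) (t : ℝ) :
    Nw D β (cy β') t η := by
  have e := inv_anti₀ (half_pos hη) (half_le_self hη.le)
  have sub := fun s => Bki64.win_sub (Y := Y) (s := s) (s' := s) (L := η⁻¹) (L' := (η / 2)⁻¹)
    (by rwa [sub_self, abs_zero, zero_add])
  obtain ⟨w, hw⟩ := Bki64.ev_choice (P := fun s (w : (Y × ℝ → CL c.m.V β.m.V) × Circle) =>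
    AdmOn c D.B D.G (win Y s η⁻¹) ∧ Cl D.Z c (cy β) w.1 (fun _ => w.2) (win Y s η⁻¹) ⌈η⁻¹⌉₊ (η / 2))
    (h'.mono fun s ⟨a, u, ζ, k⟩ => have b := hc.mono (prod_mono_right a)
      ⟨(u, ζ), b.mono (sub s), (Bki64.cl_of_cls A b k).mono (win_op _ _) (sub s) (Nat.ceil_mono e) le_rfl⟩)
  have k := Nck90.cz_of_cn (c := fun _ => c) (ρ := fun _ => r) (u := fun _ => u) (ζ := fun _ => ζ')
    (fun η' h' => Bki64.cn_of_lim A' hl hc h h' η⁻¹) ⌈η⁻¹⌉₊
  obtain ⟨s, hs⟩ := (Nck90.quot_ph (G := D.G) k (hw.mono fun _ => And.right) (hw.mono fun _ => And.left)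
    (Bki64.fx_cy A' k.op) (Bki64.fx_cy A k.op) (half_pos hη)).exists
  have := hs.sh (s - t)
  rw [Bki64.win_tr (add_sub_cancel t s).symm, add_halves] at this
  have a := (admOn_univ.2 A'.adm).mono (subset_univ (win Y t η⁻¹))
  exact ⟨a, fun x _ => E x trivial, _, _, Bki64.Cl.cls A isOpen_Ioo a this⟩

end Y

open M Rf65 An.Job

variable {Wi : Type} {X : Mf 4} {A κ lam : Type} [Fintype A] [Fintype κ] [Fintype lam]
  [DecidableEq lam] {M : Mark X A κ} {W : World M} {N : ML M lam} {Λ : Lns W N}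
  {A' h : Type} [Fintype A'] [DecidableEq A'] [Fintype h] {r n : ℕ}
  {J : Job Wi Λ A' h r n} {c : M.Cl} {σ : Cel A'}

/-- **RF-WL** for jobs -/
theorem wlJ (J : Job Wi Λ A' h r n) (a : A) : WlStmt (J.xs a).D := have := J.conn_xs a; wl _

/-- **RF-CCL** -/
theorem ccl (hJ : J.OK) (pj : PJ J c) (hσ : σ ∈ J.𝒦) : Ccl J c σ := by
  intro α 𝒰 q y q₀ y₀ s s₀ t ⟨a, e⟩ hi
  have := J.conn_xs a
  obtain ⟨b, py⟩ := pj.py a a.2
  have nil := (pj.nil a a.2).1
  obtain ⟨h1, h2, -⟩ := wlJ J a _ b (hJ.xs a).1.yd nil py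
  have H := h1 _ (s₀.crit a a.2 e)
  obtain rfl | rfl := Nat.le_one_iff_eq_zero_or_eq_one.1 py.b1
  · exact .inl ((h2 _ H).1.trans (zero_mul _))
  rcases (h2 _ H).2 with k | k | k
  · exact .inl ((h2 _ H).1.trans ((one_mul _).trans k))
  swap
  · exact .inr k
  obtain ⟨η, p, η', p', h3⟩ := dz_near py H k
  have key : ∀ η > 0, ∀ᶠ i in (𝒰 : Filter α), ∀ t, Nw (J.xs a).D (y₀.β a e) (cy ((y i).β a e)) t η :=
    fun η p => by
    obtain ⟨T, hT⟩ := t.tail a e _ (half_pos p)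
    filter_upwards [s, hT] with i s1 s2
    have ha : Act J.m c a (some e) (J.Θ (y i).s) :=
      ⟨a.2.2, hJ.memBr hσ s1.ov, hJ.memO hσ s1.ov, a.2.1⟩
    obtain ⟨u, l⟩ := s1.lim a e ha
    have cr := s1.crit a a.2 e
    have f := fun l [NeBot l] hl => nw_end (l := l) H.adm (Bki64.crit_adm cr) (eqs nil cr _) hl
      (u := u) (ζ' := (y i).ζ a e) (Nck90.adm_pb (J.K c a _ _ ha) s1.sol.toAdm)
    cases e
    · exact f _ Bki64.isEnd_top l p ((eventually_ge_atTop T).mono fun t k =>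
        s2 ha t (by simpa [pm] using k))
    · exact f _ Bki64.isEnd_bot l p ((eventually_le_atBot (-T)).mono fun t k =>
        s2 ha t (by simpa [pm, le_neg] using k))
  obtain ⟨i, ⟨a1, a2⟩, a3, a4⟩ := ((s.and hi).and ((key η p).and (key η' p'))).exists
  have H' := h1 _ (a1.crit a a.2 e)
  have := h3 _ H'.adm a3 (a4 0)
  have := (h2 _ H').1
  rcases a2 with k | k <;> simp only at k <;> omega

end Crest.Agent.X212.Wl34
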