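import Crest.Agent.X212.Wl34.Ccl

/-! Row 212, **RF-CCL** for parts. -/

set_option autoImplicit false
set_option linter.unusedSectionVars false
noncomputable section
open Set Function Filter Topology

namespace Crest.Agent.X212.Wl34
open An M Rf65 An.Job Nd18
open Rdc90 (Nw)

variable {Wi : Type} {X : Mf 4} {A κ lam : Type} [Fintype A] [Fintype κ] [Fintype lam]
  [DecidableEq lam] {M : Mark X A κ} {W : World M} {N : ML M lam} {Λ : Lns W N}
  {A' h : Type} [Fintype A'] [DecidableEq A'] [Fintype h] {r n : ℕ}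
  {J : Job Wi Λ A' h r n} {c : M.Cl} {σ : Cel A'}

theorem cclOn (hJ : J.OK) (pj : PJ J c) (hσ : σ ∈ J.𝒦) : ∀ (p : Prt A A' h) (α : Type)
    (𝒰 : Ultrafilter α) (q : α → Wi →₀ ℝ) (y : α → J.Obc c) q₀ y₀,
    (∀ᶠ k in (𝒰 : Filter α), SolOn p σ (q k) (y k)) → SolOn p σ q₀ y₀ → StrOn p 𝒰 y y₀ →
    ∀ i ∈ EdP c p.P, (∀ᶠ k in (𝒰 : Filter α), i ∈ cz (y k)) → i ∈ cz y₀ := by
  intro p α 𝒰 q y q₀ y₀ s s₀ t ⟨a, e⟩ hp hi
  have := J.conn_xs a
  obtain ⟨b, py⟩ := pj.py a a.2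
  have nil := (pj.nil a a.2).1
  obtain ⟨h1, h2, -⟩ := wlJ J a _ b (hJ.xs a).1.yd nil py
  have H := h1 _ (s₀.crit a a.2 e hp)
  obtain rfl | rfl := Nat.le_one_iff_eq_zero_or_eq_one.1 py.b1
  · exact .inl ((h2 _ H).1.trans (zero_mul _))
  rcases (h2 _ H).2 with k | k | k
  · exact .inl ((h2 _ H).1.trans ((one_mul _).trans k))
  swap
  · exact .inr k
  obtain ⟨η, p, η', p', h3⟩ := dz_near py H k
  have key : ∀ η > 0, ∀ᶠ i in (𝒰 : Filter α), ∀ t, Nw (J.xs a).D (y₀.β a e) (cy ((y i).β a e)) t η :=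
    fun η p => by
    obtain ⟨T, hT⟩ := t.tail a e hp _ (half_pos p)
    filter_upwards [s, hT] with i s1 s2
    have ha : Act J.m c a (some e) (J.Θ (y i).s) :=
      ⟨a.2.2, hJ.memBr hσ s1.ov, hJ.memO hσ s1.ov, a.2.1⟩
    obtain ⟨u, l⟩ := s1.lim a e ha hp
    have cr := s1.crit a a.2 e hp
    have f := fun l [NeBot l] hl => nw_end (l := l) H.adm (Bki64.crit_adm cr) (eqs nil cr _) hl
      (u := u) (ζ' := (y i).ζ a e) (Nck90.adm_pb (J.K c a _ _ ha) s1.adm)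
    cases e
    · exact f _ Bki64.isEnd_top l p ((eventually_ge_atTop T).mono fun t k =>
        s2 ha t (by simpa [pm] using k))
    · exact f _ Bki64.isEnd_bot l p ((eventually_le_atBot (-T)).mono fun t k =>
        s2 ha t (by simpa [pm, le_neg] using k))
  obtain ⟨i, ⟨a1, a2⟩, a3, a4⟩ := ((s.and hi).and ((key η p).and (key η' p'))).exists
  have H' := h1 _ (a1.crit a a.2 e hp)
  have := h3 _ H'.adm a3 (a4 0)
  have := (h2 _ H').1
  rcases a2 with k | k <;> simp only at k <;> omega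

end Crest.Agent.X212.Wl34
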